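import Mathlib
import Vale.Agent.Lib.P137.helper41.Defs

/-!
# P137: scaling of the Lebesgue integral on Euclidean space (pool piece B)
-/

namespace Vale.Agent.Lib.P137.H99

open Vale.Agent.Lib.P137 MeasureTheory Metric
open scoped ENNReal

theorem lintegral_comp_smul_pos {d : ℕ} (g : E d → ℝ≥0∞) {c : ℝ} (hc : 0 < c) :
    ∫⁻ z, g (c • z) = ENNReal.ofReal ((c ^ d)⁻¹) * ∫⁻ y, g y := by
  have hmap : Measure.map (fun z : E d => c • z) volume =
      ENNReal.ofReal ((c ^ d)⁻¹) • (volume : Measure (E d)) := by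
    rw [Measure.map_addHaar_smul volume hc.ne', finrank_euclideanSpace_fin,
      abs_of_nonneg (by positivity)]
  have h1 : ∫⁻ z, g (c • z) = ∫⁻ y, g y ∂(Measure.map (fun z : E d => c • z) volume) :=
    (lintegral_map_equiv g (Homeomorph.smulOfNeZero c hc.ne').toMeasurableEquiv).symm
  rw [h1, hmap, lintegral_smul_measure, smul_eq_mul]

theorem lintegral_scale_div_norm {d : ℕ} (G : ℝ → ℝ≥0∞) {c : ℝ} (hc : 0 < c) :
    ∫⁻ x : E d, G (c * ‖x‖) / ENNReal.ofReal ‖x‖ =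
      ENNReal.ofReal (c * (c ^ d)⁻¹) * ∫⁻ y : E d, G ‖y‖ / ENNReal.ofReal ‖y‖ := by
  have hc0 : ENNReal.ofReal c ≠ 0 := (ENNReal.ofReal_pos.mpr hc).ne'
  have hct : ENNReal.ofReal c ≠ ⊤ := ENNReal.ofReal_ne_top
  have hpt : ∀ x : E d, G (c * ‖x‖) / ENNReal.ofReal ‖x‖ =
      ENNReal.ofReal c * ((fun y : E d => G ‖y‖ / ENNReal.ofReal ‖y‖) (c • x)) := by
    intro x
    show G (c * ‖x‖) / ENNReal.ofReal ‖x‖ =
      ENNReal.ofReal c * (G ‖c • x‖ / ENNReal.ofReal ‖c • x‖)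
    rw [norm_smul, Real.norm_of_nonneg hc.le, ENNReal.ofReal_mul hc.le,
      ENNReal.div_eq_inv_mul, ENNReal.div_eq_inv_mul,
      ENNReal.mul_inv (Or.inl hc0) (Or.inl hct)]
    rw [← mul_assoc, ← mul_assoc, ENNReal.mul_inv_cancel hc0 hct, one_mul]
  rw [lintegral_congr hpt, lintegral_const_mul' _ _ hct,
    lintegral_comp_smul_pos (fun y : E d => G ‖y‖ / ENNReal.ofReal ‖y‖) hc, ← mul_assoc,
    ← ENNReal.ofReal_mul hc.le]

end Vale.Agent.Lib.P137.H99
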